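import Mathlib
import Vale.Agent.P099.Defs

set_option linter.all false

open MeasureTheory Set Filter Topology

namespace Vale.Agent.P099.H158

open Vale.Agent.P099

/-- A point has measure zero for the uniform measure on directions. -/
theorem nu_singleton (z : ℂ) : nu {z} = 0 := by
  unfold nu
  have hm : Measurable (fun θ : ℝ => Complex.exp (θ * Complex.I)) := by fun_prop
  rw [Measure.map_apply hm (measurableSet_singleton z)]
  rw [ProbabilityTheory.cond_apply measurableSet_Ioc]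
  have : (Ioc (-Real.pi) Real.pi ∩ (fun θ : ℝ => Complex.exp (θ * Complex.I)) ⁻¹' {z}).Subsingleton := by
    rintro a ⟨ha, ha'⟩ b ⟨hb, hb'⟩
    have h : Complex.exp (a * Complex.I) = Complex.exp (b * Complex.I) := by
      simp only [mem_preimage, mem_singleton_iff] at ha' hb'
      rw [ha', hb']
    have h2 := congrArg Complex.arg h
    rw [Complex.arg_exp_mul_I, Complex.arg_exp_mul_I] at h2
    rw [toIocMod_eq_self _ |>.2, toIocMod_eq_self _ |>.2] at h2
    · exact h2
    · refine ⟨hb.1, ?_⟩; have := hb.2; linarith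
    · refine ⟨ha.1, ?_⟩; have := ha.2; linarith
  rw [this.measure_zero, mul_zero]

theorem nu_finite_zero {S : Set ℂ} (hS : S.Finite) : nu S = 0 := by
  have : NullSingletonClass nu := ⟨nu_singleton⟩
  exact hS.measure_zero nu

instance nu_prob : IsProbabilityMeasure nu := by
  unfold nu
  have hp : IsProbabilityMeasure (ProbabilityTheory.cond volume (Ioc (-Real.pi) Real.pi)) := by
    apply ProbabilityTheory.cond_isProbabilityMeasure_of_finite
    · simp [Real.pi_pos]
    · simp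
  exact Measure.isProbabilityMeasure_map (by fun_prop)

/-- Almost every direction is a unit vector. -/
theorem nu_ae_norm : ∀ᵐ u ∂nu, ‖u‖ = 1 := by
  unfold nu
  rw [ae_map_iff (by fun_prop) (measurableSet_eq_fun (by fun_prop) (by fun_prop))]
  exact Eventually.of_forall fun θ => Complex.norm_exp_ofReal_mul_I θ

/-- Almost every pair of directions is not parallel. -/
theorem ae_not_parallel : ∀ᵐ w ∂(nu.prod nu), ∀ s s' : ℝ, s • w.1 = s' • w.2 → s = 0 ∧ s' = 0 := by
  have hset : MeasurableSet {w : ℂ × ℂ | ‖w.1‖ = 1 ∧ ‖w.2‖ = 1 ∧ w.1 ≠ w.2 ∧ w.1 ≠ -w.2} := by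
    measurability
  have h : ∀ᵐ w ∂(nu.prod nu), ‖w.1‖ = 1 ∧ ‖w.2‖ = 1 ∧ w.1 ≠ w.2 ∧ w.1 ≠ -w.2 := by
    rw [Measure.ae_prod_iff_ae_ae hset]
    filter_upwards [nu_ae_norm] with u hu
    have h3 : ∀ᵐ v ∂nu, v ≠ u := by
      rw [ae_iff]; simpa using nu_singleton u
    have h4 : ∀ᵐ v ∂nu, v ≠ -u := by
      rw [ae_iff]; simpa using nu_singleton (-u)
    filter_upwards [nu_ae_norm, h3, h4] with v hv h3 h4
    refine ⟨hu, hv, fun h => h3 h.symm, fun h => h4 ?_⟩
    rw [h]; simp
  filter_upwards [h] with w hw s s' hs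
  obtain ⟨h1, h2, h3, h4⟩ := hw
  have hn : |s| = |s'| := by
    have := congrArg norm hs
    rwa [norm_smul, norm_smul, h1, h2, mul_one, mul_one, Real.norm_eq_abs, Real.norm_eq_abs] at this
  by_contra hcon
  have hs0 : s ≠ 0 := by
    rintro rfl
    apply hcon
    refine ⟨rfl, ?_⟩
    simpa using hn.symm
  rcases abs_eq_abs.1 hn with h | h
  · subst h
    exact h3 (smul_right_injective ℂ hs0 hs)
  · have hs' : s' = -s := by linarith
    rw [hs'] at hs
    apply h4
    apply smul_right_injective ℂ hs0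
    simp only
    rw [hs, smul_neg, neg_smul]

/-- The map `(p, s, s') ↦ (p + s u, p + s' u')`. -/
noncomputable def lin (u u' : ℂ) : (ℂ × (ℝ × ℝ)) →ₗ[ℝ] (ℂ × ℂ) where
  toFun x := (x.1 + x.2.1 • u, x.1 + x.2.2 • u')
  map_add' x y := by
    simp only [Prod.fst_add, Prod.snd_add, add_smul, Prod.mk_add_mk]
    congr 1 <;> abel
  map_smul' c x := by
    simp only [Prod.smul_fst, Prod.smul_snd, RingHom.id_apply, Prod.smul_mk, smul_add, smul_smul, smul_eq_mul]

theorem lin_injective {u u' : ℂ} (h : ∀ s s' : ℝ, s • u = s' • u' → s = 0 ∧ s' = 0) :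
    Function.Injective (lin u u') := by
  rw [← LinearMap.ker_eq_bot, LinearMap.ker_eq_bot']
  rintro ⟨p, s, s'⟩ hx
  simp only [lin, LinearMap.coe_mk, AddHom.coe_mk, Prod.mk_eq_zero] at hx
  obtain ⟨h1, h2⟩ := hx
  have h3 : s • u = s' • u' := by
    have := h1.trans h2.symm
    simpa using this
  obtain ⟨rfl, rfl⟩ := h s s' h3
  simp at h1
  simp [h1]

theorem lin_qmp {u u' : ℂ} (h : ∀ s s' : ℝ, s • u = s' • u' → s = 0 ∧ s' = 0) :
    Measure.QuasiMeasurePreserving (lin u u') (volume.prod (volume.prod volume))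
      (volume.prod volume) := by
  have hdim : Module.finrank ℝ (ℂ × (ℝ × ℝ)) = Module.finrank ℝ (ℂ × ℂ) := by
    simp [Complex.finrank_real_complex]
  let e : (ℂ × (ℝ × ℝ)) ≃ₗ[ℝ] (ℂ × ℂ) := LinearEquiv.ofInjectiveOfFinrankEq (lin u u') (lin_injective h) hdim
  let e' := e.toContinuousLinearEquiv
  have he : ⇑e' = ⇑(lin u u') := by
    ext x <;> rfl
  refine ⟨?_, ?_⟩
  · rw [← he]; exact e'.continuous.measurable
  · rw [← he]
    have h1 : ((volume : Measure ℝ).prod (volume : Measure ℝ)).IsAddHaarMeasure :=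
      Measure.prod.instIsAddHaarMeasure _ _
    have h2 : ((volume : Measure ℂ).prod ((volume : Measure ℝ).prod (volume : Measure ℝ))).IsAddHaarMeasure :=
      Measure.prod.instIsAddHaarMeasure _ _
    have h3 : ((volume : Measure ℂ).prod (volume : Measure ℂ)).IsAddHaarMeasure :=
      Measure.prod.instIsAddHaarMeasure _ _
    have : (Measure.map (⇑e') ((volume : Measure ℂ).prod ((volume : Measure ℝ).prod volume))).IsAddHaarMeasure :=
      e'.isAddHaarMeasure_map _
    exact Measure.absolutelyContinuous_isAddHaarMeasure _ _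

theorem rearrange {X Y : Type*} [MeasurableSpace X] [MeasurableSpace Y]
    (m : Measure X) (n : Measure Y) [SFinite m] [SFinite n] :
    MeasurePreserving (fun z : (Y × Y) × (X × X) =>
      (((z.2.1, z.1.1), (z.2.2, z.1.2)) : (X × Y) × (X × Y)))
      ((n.prod n).prod (m.prod m)) ((m.prod n).prod (m.prod n)) := by
  have s1 : MeasurePreserving (MeasurableEquiv.prodAssoc : (Y × Y) × (X × X) ≃ᵐ Y × (Y × (X × X)))
      ((n.prod n).prod (m.prod m)) (n.prod (n.prod (m.prod m))) :=
    measurePreserving_prodAssoc n n (m.prod m)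
  have s2 : MeasurePreserving (Prod.map (id : Y → Y) (Prod.swap : Y × (X × X) → (X × X) × Y))
      (n.prod (n.prod (m.prod m))) (n.prod ((m.prod m).prod n)) :=
    (MeasurePreserving.id n).prod Measure.measurePreserving_swap
  have s3 : MeasurePreserving (Prod.map (id : Y → Y) (MeasurableEquiv.prodAssoc : (X × X) × Y ≃ᵐ X × (X × Y)))
      (n.prod ((m.prod m).prod n)) (n.prod (m.prod (m.prod n))) :=
    (MeasurePreserving.id n).prod (measurePreserving_prodAssoc m m n)
  have s4 : MeasurePreserving (MeasurableEquiv.prodAssoc.symm : Y × (X × (X × Y)) ≃ᵐ (Y × X) × (X × Y))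
      (n.prod (m.prod (m.prod n))) ((n.prod m).prod (m.prod n)) :=
    (measurePreserving_prodAssoc n m (m.prod n)).symm
  have s5 : MeasurePreserving (Prod.map (Prod.swap : Y × X → X × Y) (id : X × Y → X × Y))
      ((n.prod m).prod (m.prod n)) ((m.prod n).prod (m.prod n)) :=
    Measure.measurePreserving_swap.prod (MeasurePreserving.id _)
  exact s5.comp (s4.comp (s3.comp (s2.comp s1)))

/-- **Absolute continuity** of the two-particle light measure. -/
theorem wave_qmp : Measure.QuasiMeasurePreserving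
    (fun x : (ℂ × ℂ) × (ℂ × (ℝ × ℝ)) =>
      (((x.2.1 + x.2.2.1 • x.1.1, x.1.1), (x.2.1 + x.2.2.2 • x.1.2, x.1.2)) : (ℂ × ℂ) × (ℂ × ℂ)))
    ((nu.prod nu).prod ((volume : Measure ℂ).prod ((volume : Measure ℝ).prod (volume : Measure ℝ))))
    (((volume : Measure ℂ).prod nu).prod ((volume : Measure ℂ).prod nu)) := by
  have hmeas : Measurable (fun x : (ℂ × ℂ) × (ℂ × (ℝ × ℝ)) =>
      (((x.2.1 + x.2.2.1 • x.1.1, x.1.1), (x.2.1 + x.2.2.2 • x.1.2, x.1.2)) :
        (ℂ × ℂ) × (ℂ × ℂ))) := by fun_prop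
  refine ⟨hmeas, ?_⟩
  refine Measure.AbsolutelyContinuous.mk fun N hN h0 => ?_
  rw [Measure.map_apply hmeas hN]
  -- rearrangement of the coordinates
  have hR : MeasurePreserving (fun z : (ℂ × ℂ) × (ℂ × ℂ) => (((z.2.1, z.1.1), (z.2.2, z.1.2)) : (ℂ × ℂ) × (ℂ × ℂ)))
      ((nu.prod nu).prod ((volume : Measure ℂ).prod (volume : Measure ℂ)))
      (((volume : Measure ℂ).prod nu).prod ((volume : Measure ℂ).prod nu)) := rearrange _ _
  have h1 : ∀ᵐ w ∂(nu.prod nu), ∀ᵐ q ∂((volume : Measure ℂ).prod (volume : Measure ℂ)),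
      (((q.1, w.1), (q.2, w.2)) : (ℂ × ℂ) × (ℂ × ℂ)) ∉ N := by
    have h2 : ((nu.prod nu).prod ((volume : Measure ℂ).prod (volume : Measure ℂ)))
        ((fun z : (ℂ × ℂ) × (ℂ × ℂ) => (((z.2.1, z.1.1), (z.2.2, z.1.2)) : (ℂ × ℂ) × (ℂ × ℂ))) ⁻¹' N) = 0 := by
      rw [hR.measure_preimage hN.nullMeasurableSet, h0]
    have h3 := Measure.ae_ae_of_ae_prod (measure_eq_zero_iff_ae_notMem.1 h2)
    exact h3
  rw [measure_eq_zero_iff_ae_notMem, Measure.ae_prod_iff_ae_ae (hmeas hN).compl]
  filter_upwards [h1, ae_not_parallel] with w hw hpar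
  exact (lin_qmp hpar).ae hw

end Vale.Agent.P099.H158
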