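import Mathlib

set_option linter.all false

open MeasureTheory Set Filter Topology

namespace Vale.Agent.P099.H158

/-- A way of averaging: plain limits and Cesàro limits are both instances. -/
structure Mode (ι κ : Type*) where
  L : Filter κ
  avg : (ι → ℝ) → κ → ℝ
  mono : ∀ x y : ι → ℝ, (∀ i, x i ≤ y i) → ∀ j, avg x j ≤ avg y j
  add : ∀ (x y : ι → ℝ) j, avg (fun i => x i + y i) j ≤ avg x j + avg y j
  smul : ∀ (c : ℝ) (x : ι → ℝ) j, 0 ≤ c → avg (fun i => c * x i) j ≤ c * avg x j
  const : ∀ (c : ℝ) j, 0 ≤ c → avg (fun _ => c) j ≤ c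

namespace Mode

variable {ι κ : Type*} (P : Mode ι κ)

def Null (x : ι → ℝ) : Prop := ∀ ε > 0, ∀ᶠ j in P.L, P.avg (fun i => |x i|) j ≤ ε

variable {P}

theorem Null.approx {x : ι → ℝ} (h : ∀ ε > 0, ∃ y, P.Null y ∧ ∀ i, |x i| ≤ |y i| + ε) :
    P.Null x := by
  intro ε hε
  obtain ⟨y, hy, hxy⟩ := h (ε / 2) (half_pos hε)
  filter_upwards [hy (ε / 2) (half_pos hε)] with j hj
  calc P.avg (fun i => |x i|) j ≤ P.avg (fun i => |y i| + ε / 2) j := P.mono _ _ hxy j
    _ ≤ P.avg (fun i => |y i|) j + P.avg (fun _ => ε / 2) j := P.add _ _ j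
    _ ≤ ε / 2 + ε / 2 := add_le_add hj (P.const _ _ (half_pos hε).le)
    _ = ε := add_halves ε

theorem Null.of_le {x y : ι → ℝ} (hy : P.Null y) (h : ∀ i, |x i| ≤ |y i|) : P.Null x := by
  intro ε hε
  filter_upwards [hy ε hε] with j hj
  exact (P.mono _ _ h j).trans hj

theorem Null.add {x y : ι → ℝ} (hx : P.Null x) (hy : P.Null y) :
    P.Null (fun i => x i + y i) := by
  intro ε hε
  filter_upwards [hx (ε / 2) (half_pos hε), hy (ε / 2) (half_pos hε)] with j hj hj'
  calc P.avg (fun i => |x i + y i|) j ≤ P.avg (fun i => |x i| + |y i|) j :=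
        P.mono _ _ (fun i => abs_add_le _ _) j
    _ ≤ P.avg (fun i => |x i|) j + P.avg (fun i => |y i|) j := P.add _ _ j
    _ ≤ ε / 2 + ε / 2 := add_le_add hj hj'
    _ = ε := add_halves ε

theorem Null.mul_bdd {x y : ι → ℝ} (hx : P.Null x) {C : ℝ} (hy : ∀ i, |y i| ≤ C) :
    P.Null (fun i => x i * y i) := by
  intro ε hε
  have hC : 0 < |C| + 1 := by positivity
  filter_upwards [hx (ε / (|C| + 1)) (div_pos hε hC)] with j hj
  have h1 : ∀ i, |x i * y i| ≤ (|C| + 1) * |x i| := by
    intro i
    rw [abs_mul, mul_comm]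
    apply mul_le_mul_of_nonneg_right _ (abs_nonneg _)
    linarith [hy i, le_abs_self C]
  calc P.avg (fun i => |x i * y i|) j ≤ P.avg (fun i => (|C| + 1) * |x i|) j := P.mono _ _ h1 j
    _ ≤ (|C| + 1) * P.avg (fun i => |x i|) j := P.smul _ _ _ hC.le
    _ ≤ (|C| + 1) * (ε / (|C| + 1)) := by gcongr
    _ = ε := by field_simp

theorem Null.const_mul {x : ι → ℝ} (hx : P.Null x) (c : ℝ) : P.Null (fun i => c * x i) := by
  have := hx.mul_bdd (y := fun _ => c) (C := |c|) (fun _ => le_rfl)
  simpa [mul_comm] using this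

theorem Null.neg {x : ι → ℝ} (hx : P.Null x) : P.Null (fun i => - x i) :=
  hx.of_le (fun i => by rw [abs_neg])

theorem Null.sub {x y : ι → ℝ} (hx : P.Null x) (hy : P.Null y) :
    P.Null (fun i => x i - y i) := by
  simpa [sub_eq_add_neg] using hx.add hy.neg

theorem Null.zero : P.Null (fun _ : ι => (0 : ℝ)) := by
  intro ε hε
  filter_upwards with j
  simp only [abs_zero]
  exact (P.const 0 j le_rfl).trans hε.le

theorem Null.sum {α : Type*} (s : Finset α) {x : α → ι → ℝ} (hx : ∀ a ∈ s, P.Null (x a)) :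
    P.Null (fun i => ∑ a ∈ s, x a i) := by
  classical
  induction s using Finset.induction_on with
  | empty => simpa using Null.zero
  | insert a s ha ih =>
    simp only [Finset.sum_insert ha]
    exact (hx a (Finset.mem_insert_self _ _)).add (ih fun b hb => hx b (Finset.mem_insert_of_mem hb))

/-- plain limits along a filter -/
def plain {ι : Type*} (L : Filter ι) : Mode ι ι where
  L := L
  avg x := x
  mono _ _ h := h
  add _ _ _ := le_rfl
  smul _ _ _ _ := le_rfl
  const _ _ _ := le_rfl

theorem plain_null {ι : Type*} {L : Filter ι} {x : ι → ℝ} : (plain L).Null x ↔ Tendsto x L (𝓝 0) := by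
  constructor
  · intro h
    rw [Metric.tendsto_nhds]
    intro ε hε
    filter_upwards [h (ε / 2) (half_pos hε)] with j hj
    simp only [plain] at hj
    rw [Real.dist_eq, sub_zero]; linarith
  · intro h ε hε
    rw [Metric.tendsto_nhds] at h
    show ∀ᶠ j in L, |x j| ≤ ε
    filter_upwards [h ε hε] with j hj
    rw [Real.dist_eq, sub_zero] at hj
    exact hj.le

/-- Cesàro means -/
noncomputable def cesaro : Mode ℕ ℕ where
  L := atTop
  avg x n := (n : ℝ)⁻¹ * ∑ k ∈ Finset.range n, x k
  mono x y h n := by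
    apply mul_le_mul_of_nonneg_left _ (by positivity)
    exact Finset.sum_le_sum fun i _ => h i
  add x y n := by rw [Finset.sum_add_distrib, mul_add]
  smul c x n _ := by rw [← Finset.mul_sum]; apply le_of_eq; ring
  const c n hc := by
    simp only [Finset.sum_const, Finset.card_range, nsmul_eq_mul]
    rcases Nat.eq_zero_or_pos n with rfl | hn
    · simpa using hc
    · have : (n : ℝ) ≠ 0 := by positivity
      apply le_of_eq; field_simp

theorem cesaro_null {x : ℕ → ℝ} : cesaro.Null x ↔
    Tendsto (fun n : ℕ => (n : ℝ)⁻¹ * ∑ k ∈ Finset.range n, |x k|) atTop (𝓝 0) := by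
  constructor
  · intro h
    rw [Metric.tendsto_nhds]
    intro ε hε
    filter_upwards [h (ε / 2) (half_pos hε)] with j hj
    simp only [cesaro] at hj
    rw [Real.dist_eq, sub_zero, abs_of_nonneg (by positivity)]; linarith
  · intro h ε hε
    rw [Metric.tendsto_nhds] at h
    show ∀ᶠ n : ℕ in atTop, (n : ℝ)⁻¹ * ∑ k ∈ Finset.range n, |x k| ≤ ε
    filter_upwards [h ε hε] with j hj
    rw [Real.dist_eq, sub_zero, abs_of_nonneg (by positivity)] at hj
    exact hj.le

end Mode

open Mode

variable {ι κ : Type*} {P : Mode ι κ}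

/-- From a generating pi-system to all measurable sets. -/
theorem null_measurable {Y : Type*} [mY : MeasurableSpace Y] (μ : Measure Y) [IsProbabilityMeasure μ]
    (S : ι → Set Y) (hS : ∀ i, MeasurableSet (S i)) {b : ℝ} (hb0 : 0 ≤ b) (hb1 : b ≤ 1)
    {G : Set (Set Y)} (hG : mY = MeasurableSpace.generateFrom G) (hpi : IsPiSystem G)
    (huniv : P.Null (fun i => μ.real (S i) - b))
    (hrect : ∀ B ∈ G, P.Null (fun i => μ.real (S i ∩ B) - b * μ.real B))
    (B : Set Y) (hB : MeasurableSet B) : P.Null (fun i => μ.real (S i ∩ B) - b * μ.real B) := by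
  induction B, hB using MeasurableSpace.induction_on_inter hG hpi with
  | empty => simpa using Null.zero
  | basic B hB => exact hrect B hB
  | compl B hB ih =>
    have h := huniv.sub ih
    convert h using 2 with i
    have h1 : μ.real (S i ∩ Bᶜ) = μ.real (S i) - μ.real (S i ∩ B) := by
      rw [← diff_eq, eq_sub_iff_add_eq, add_comm]
      exact measureReal_inter_add_diff hB
    rw [h1, probReal_compl_eq_one_sub hB]
    ring
  | iUnion f hd hf ih =>
    apply Null.approx
    intro ε hε
    have hB : MeasurableSet (⋃ n, f n) := MeasurableSet.iUnion hf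
    set g : ℕ → Set Y := fun N => ⋃ n ∈ Finset.range N, f n with hg
    have hgm : ∀ N, MeasurableSet (g N) := fun N => Finset.measurableSet_biUnion _ fun n _ => hf n
    have hgB : ∀ N, g N ⊆ ⋃ n, f n := fun N => iUnion₂_subset fun n _ => subset_iUnion f n
    have hmono : Monotone g := by
      intro M N hMN
      exact biUnion_subset_biUnion_left (fun n hn => by
        simp only [Finset.coe_range, mem_Iio, Finset.mem_coe, Finset.mem_range] at hn ⊢
        exact lt_of_lt_of_le hn hMN)
    have hUn : ⋃ N, g N = ⋃ n, f n := by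
      apply Subset.antisymm (iUnion_subset hgB)
      apply iUnion_subset
      intro n
      apply Subset.trans _ (subset_iUnion g (n + 1))
      exact subset_biUnion_of_mem (u := f) (by simp : n ∈ Finset.range (n + 1))
    have hacc : Tendsto (fun n => μ.real (g n)) atTop (𝓝 (μ.real (⋃ n, f n))) := by
      have := tendsto_measure_iUnion_atTop (μ := μ) hmono
      rw [hUn] at this
      exact (ENNReal.tendsto_toReal (measure_ne_top _ _)).comp this
    obtain ⟨N, hN⟩ := (hacc.eventually (lt_mem_nhds (sub_lt_self _ hε))).exists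
    refine ⟨fun i => μ.real (S i ∩ g N) - b * μ.real (g N), ?_, fun i => ?_⟩
    · have h := Null.sum (P := P) (Finset.range N) (x := fun n i => μ.real (S i ∩ f n) - b * μ.real (f n))
        (fun n _ => ih n)
      convert h using 2 with i
      have h1 : μ.real (S i ∩ g N) = ∑ n ∈ Finset.range N, μ.real (S i ∩ f n) := by
        rw [hg]
        simp only [inter_iUnion]
        rw [measureReal_biUnion_finset]
        · intro a _ c _ hac
          exact (hd hac).mono inter_subset_right inter_subset_right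
        · intro n _
          exact (hS i).inter (hf n)
      have h2 : μ.real (g N) = ∑ n ∈ Finset.range N, μ.real (f n) := by
        rw [hg]
        rw [measureReal_biUnion_finset]
        · intro a _ c _ hac
          exact hd hac
        · intro n _
          exact hf n
      rw [h1, h2, Finset.sum_sub_distrib, Finset.mul_sum]
    · have e1 : μ.real (S i ∩ g N) ≤ μ.real (S i ∩ ⋃ n, f n) :=
        measureReal_mono (inter_subset_inter_right _ (hgB N))
      have e2 : μ.real (g N) ≤ μ.real (⋃ n, f n) := measureReal_mono (hgB N)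
      have e3 : μ.real (S i ∩ ⋃ n, f n) - μ.real (S i ∩ g N) ≤ μ.real (⋃ n, f n) - μ.real (g N) := by
        rw [← measureReal_diff (hgB N) (hgm N), ← measureReal_diff (inter_subset_inter_right _ (hgB N))
          ((hS i).inter (hgm N))]
        refine measureReal_mono ?_ (measure_ne_top _ _)
        rintro x ⟨⟨hx1, hx2⟩, hx3⟩
        exact ⟨hx2, fun h => hx3 ⟨hx1, h⟩⟩
      have e4 : b * μ.real (⋃ n, f n) - b * μ.real (g N) ≤ μ.real (⋃ n, f n) - μ.real (g N) := by
        nlinarith
      have e5 : 0 ≤ b * μ.real (⋃ n, f n) - b * μ.real (g N) := by nlinarith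
      have e6 : |μ.real (S i ∩ ⋃ n, f n) - b * μ.real (⋃ n, f n) -
          (μ.real (S i ∩ g N) - b * μ.real (g N))| ≤ ε := by
        rw [abs_le]; constructor <;> linarith
      have e7 := abs_add_le (μ.real (S i ∩ g N) - b * μ.real (g N))
        (μ.real (S i ∩ ⋃ n, f n) - b * μ.real (⋃ n, f n) - (μ.real (S i ∩ g N) - b * μ.real (g N)))
      rw [add_sub_cancel] at e7
      linarith

/-- The same for densities. -/
theorem null_integrable {Y : Type*} [mY : MeasurableSpace Y] (μ : Measure Y) [IsProbabilityMeasure μ]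
    (S : ι → Set Y) (hS : ∀ i, MeasurableSet (S i)) {b : ℝ} (hb0 : 0 ≤ b) (hb1 : b ≤ 1)
    (h : ∀ B, MeasurableSet B → P.Null (fun i => μ.real (S i ∩ B) - b * μ.real B))
    (f : Y → ℝ) (hf : Integrable f μ) :
    P.Null (fun i => ∫ y in S i, f y ∂μ - b * ∫ y, f y ∂μ) := by
  refine Integrable.induction (fun f : Y → ℝ =>
    P.Null (fun i => ∫ y in S i, f y ∂μ - b * ∫ y, f y ∂μ)) ?_ ?_ ?_ ?_ hf
  · intro c B hB _
    have h1 := (h B hB).const_mul c
    convert h1 using 2 with i
    rw [integral_indicator hB, integral_indicator hB, Measure.restrict_restrict hB]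
    simp only [integral_const, smul_eq_mul, measureReal_restrict_apply_univ]
    rw [inter_comm]
    ring
  · intro f g _ hf hg h1 h2
    convert h1.add h2 using 2 with i
    simp only [Pi.add_apply]
    rw [integral_add hf.integrableOn hg.integrableOn, integral_add hf hg]
    ring
  · rw [← isSeqClosed_iff_isClosed]
    intro u f hu huf
    apply Null.approx
    intro ε hε
    have h3 : Tendsto (fun n => ‖u n - f‖) atTop (𝓝 0) := tendsto_iff_norm_sub_tendsto_zero.1 huf
    obtain ⟨n, hn⟩ := (h3.eventually (gt_mem_nhds (half_pos hε))).exists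
    refine ⟨_, hu n, fun i => ?_⟩
    have hfi : Integrable (f : Y → ℝ) μ := L1.integrable_coeFn f
    have hui : Integrable (u n : Y → ℝ) μ := L1.integrable_coeFn (u n)
    have hnorm : ∫ y, ‖u n y - f y‖ ∂μ ≤ ε / 2 := by
      have h4 := L1.norm_eq_integral_norm (u n - f)
      have h5 : ∫ y, ‖(u n - f : Y →₁[μ] ℝ) y‖ ∂μ = ∫ y, ‖u n y - f y‖ ∂μ := by
        apply integral_congr_ae
        filter_upwards [Lp.coeFn_sub (u n) f] with y hy
        rw [hy, Pi.sub_apply]
      rw [← h5, ← h4]; exact hn.le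
    have e1 : |∫ y in S i, u n y ∂μ - ∫ y in S i, f y ∂μ| ≤ ε / 2 := by
      rw [← integral_sub hui.integrableOn hfi.integrableOn]
      calc |∫ y in S i, (u n y - f y) ∂μ| ≤ ∫ y in S i, ‖u n y - f y‖ ∂μ :=
            abs_integral_le_integral_abs
        _ ≤ ∫ y, ‖u n y - f y‖ ∂μ :=
            setIntegral_le_integral (hui.sub hfi).norm (Eventually.of_forall fun _ => norm_nonneg _)
        _ ≤ ε / 2 := hnorm
    have e2 : |∫ y, u n y ∂μ - ∫ y, f y ∂μ| ≤ ε / 2 := by
      rw [← integral_sub hui hfi]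
      exact abs_integral_le_integral_abs.trans hnorm
    have e3 : |b * ∫ y, u n y ∂μ - b * ∫ y, f y ∂μ| ≤ ε / 2 := by
      rw [← mul_sub, abs_mul, abs_of_nonneg hb0]
      calc b * |∫ y, u n y ∂μ - ∫ y, f y ∂μ| ≤ 1 * |∫ y, u n y ∂μ - ∫ y, f y ∂μ| := by gcongr
        _ ≤ ε / 2 := by rw [one_mul]; exact e2
    have e4 : ∫ y in S i, f y ∂μ - b * ∫ y, f y ∂μ = (∫ y in S i, u n y ∂μ - b * ∫ y, u n y ∂μ)
        + (-(∫ y in S i, u n y ∂μ - ∫ y in S i, f y ∂μ) + (b * ∫ y, u n y ∂μ - b * ∫ y, f y ∂μ)) := by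
      ring
    rw [e4]
    refine (abs_add_le _ _).trans ?_
    have e5 := abs_add_le (-(∫ y in S i, u n y ∂μ - ∫ y in S i, f y ∂μ))
      (b * ∫ y, u n y ∂μ - b * ∫ y, f y ∂μ)
    rw [abs_neg] at e5
    linarith
  · intro f g hfg hf h1
    convert h1 using 2 with i
    rw [integral_congr_ae hfg, integral_congr_ae (ae_restrict_of_ae hfg)]

/-- The same for all finite absolutely continuous measures. -/
theorem null_ac {Y : Type*} [mY : MeasurableSpace Y] (μ : Measure Y) [IsProbabilityMeasure μ]
    (S : ι → Set Y) (hS : ∀ i, MeasurableSet (S i)) {b : ℝ} (hb0 : 0 ≤ b) (hb1 : b ≤ 1)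
    (h : ∀ B, MeasurableSet B → P.Null (fun i => μ.real (S i ∩ B) - b * μ.real B))
    (M : Measure Y) [IsFiniteMeasure M] (hM : M ≪ μ) :
    P.Null (fun i => M.real (S i) - b * M.real univ) := by
  have h1 := null_integrable μ S hS hb0 hb1 h (fun y => (M.rnDeriv μ y).toReal)
    Measure.integrable_toReal_rnDeriv
  convert h1 using 2 with i
  rw [Measure.setIntegral_toReal_rnDeriv hM, Measure.integral_toReal_rnDeriv hM]

/-- First moments. -/
theorem first_moment {X : Type*} [MeasurableSpace X] (m : Measure X) [IsProbabilityMeasure m]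
    (A : ι → Set X) (hA : ∀ i, MeasurableSet (A i)) {a : ℝ} (ha0 : 0 ≤ a) (ha1 : a ≤ 1)
    (h : ∀ B, MeasurableSet B → P.Null (fun i => m.real (A i ∩ B) - a * m.real B))
    (M : Measure X) [IsFiniteMeasure M] (hM : M ≪ m) :
    P.Null (fun i => M.real (A i) - a * M.real univ) :=
  null_ac m A hA ha0 ha1 h M hM

/-- Second moments. -/
theorem second_moment {X : Type*} [MeasurableSpace X] (m : Measure X) [IsProbabilityMeasure m]
    (A : ι → Set X) (hA : ∀ i, MeasurableSet (A i)) {a : ℝ} (ha0 : 0 ≤ a) (ha1 : a ≤ 1)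
    (h : ∀ B, MeasurableSet B → P.Null (fun i => m.real (A i ∩ B) - a * m.real B))
    (M : Measure (X × X)) [IsFiniteMeasure M] (hM : M ≪ m.prod m) :
    P.Null (fun i => M.real (A i ×ˢ A i) - a ^ 2 * M.real univ) := by
  have key : ∀ B C : Set X, MeasurableSet B → MeasurableSet C →
      P.Null (fun i => (m.prod m).real ((A i ×ˢ A i) ∩ (B ×ˢ C)) - a ^ 2 * (m.prod m).real (B ×ˢ C)) := by
    intro B C hB hC
    have h1 := (h B hB).mul_bdd (y := fun i => m.real (A i ∩ C)) (C := 1)
      (fun i => by rw [abs_of_nonneg measureReal_nonneg]; exact measureReal_le_one)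
    have h2 := (h C hC).const_mul (a * m.real B)
    convert h1.add h2 using 2 with i
    rw [prod_inter_prod, measureReal_prod_prod, measureReal_prod_prod]
    ring
  refine null_ac (m.prod m) (fun i => A i ×ˢ A i) (fun i => (hA i).prod (hA i)) (sq_nonneg a)
    (by nlinarith) ?_ M hM
  refine null_measurable (m.prod m) (fun i => A i ×ˢ A i) (fun i => (hA i).prod (hA i)) (sq_nonneg a)
    (by nlinarith) (G := Set.image2 (· ×ˢ ·) {s | MeasurableSet s} {t | MeasurableSet t})
    generateFrom_prod.symm isPiSystem_prod ?_ ?_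
  · have := key univ univ MeasurableSet.univ MeasurableSet.univ
    simpa using this
  · rintro _ ⟨B, hB, C, hC, rfl⟩
    exact key B C hB hC

end Vale.Agent.P099.H158
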