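import Vale.Agent.P099.R2.H366.Defs

/-! # P099, wave fronts (H366): row E2 (Fubini), by helper158. -/

set_option linter.all false

namespace Vale.Agent.P099.H366

open MeasureTheory Set Filter Topology Vale.Agent.P099 Vale.Agent.P099T

/-- the amount of times `s ≤ δ` at which `q` and `Θ s q` are separated by `A` -/
noncomputable def err (Θ : ℝ → ℂ × ℂ → ℂ × ℂ) (A : Set (ℂ × ℂ)) (δ : ℝ) (q : ℂ × ℂ) : ℝ :=
  ((volume : Measure ℝ).restrict (Ioc 0 δ)).real {s | q ∈ symmDiff A (Θ s ⁻¹' A)}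

/-- Row E2 for an arbitrary probability space and a jointly measurable family of maps. -/
theorem err_gen {Z : Type*} [MeasurableSpace Z] (μ : Measure Z) [IsProbabilityMeasure μ]
    {Θ : ℝ → Z → Z} (hm : Measurable (fun z : ℝ × Z => Θ z.1 z.2))
    {A : Set Z} (hA : MeasurableSet A) {δ ε : ℝ} (hδ : 0 < δ)
    (h : ∀ s : ℝ, |s| ≤ δ → μ.real (symmDiff A (Θ s ⁻¹' A)) ≤ ε) :
    Measurable (fun q => ((volume : Measure ℝ).restrict (Ioc 0 δ)).real {s | q ∈ symmDiff A (Θ s ⁻¹' A)}) ∧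
    (∀ q, 0 ≤ ((volume : Measure ℝ).restrict (Ioc 0 δ)).real {s | q ∈ symmDiff A (Θ s ⁻¹' A)} ∧
      ((volume : Measure ℝ).restrict (Ioc 0 δ)).real {s | q ∈ symmDiff A (Θ s ⁻¹' A)} ≤ δ) ∧
      ∫ q, ((volume : Measure ℝ).restrict (Ioc 0 δ)).real {s | q ∈ symmDiff A (Θ s ⁻¹' A)} ∂μ ≤ δ * ε := by
  have hε : 0 ≤ ε := measureReal_nonneg.trans (h 0 (by simpa using hδ.le))
  set σ := (volume : Measure ℝ).restrict (Ioc 0 δ) with hσ
  have hfin : IsFiniteMeasure σ := by rw [hσ]; infer_instance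
  have hσu : σ univ = ENNReal.ofReal δ := by rw [hσ]; simp
  let D : Set (Z × ℝ) := {x | x.1 ∈ symmDiff A (Θ x.2 ⁻¹' A)}
  have hD1 : MeasurableSet {x : Z × ℝ | x.1 ∈ A} := measurable_fst hA
  have hD2 : MeasurableSet {x : Z × ℝ | Θ x.2 x.1 ∈ A} := (hm.comp measurable_swap) hA
  have hD : MeasurableSet D := by
    have : D = symmDiff {x : Z × ℝ | x.1 ∈ A} {x : Z × ℝ | Θ x.2 x.1 ∈ A} := by
      ext x; simp [D, mem_symmDiff]
    rw [this]; exact hD1.symmDiff hD2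
  have hmeas : Measurable (fun q => σ {s | q ∈ symmDiff A (Θ s ⁻¹' A)}) :=
    measurable_measure_prodMk_left hD
  refine ⟨hmeas.ennreal_toReal, fun q => ⟨measureReal_nonneg, ?_⟩, ?_⟩
  · have : σ.real {s | q ∈ symmDiff A (Θ s ⁻¹' A)} ≤ σ.real univ := measureReal_mono (subset_univ _)
    refine this.trans (le_of_eq ?_)
    rw [measureReal_def, hσu, ENNReal.toReal_ofReal hδ.le]
  · have e1 : ∫ q, σ.real {s | q ∈ symmDiff A (Θ s ⁻¹' A)} ∂μ = ((μ.prod σ) D).toReal := by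
      rw [Measure.prod_apply hD]
      simp only [measureReal_def]
      rw [integral_toReal hmeas.aemeasurable (Eventually.of_forall fun q => measure_lt_top _ _)]
      rfl
    have e2 : (μ.prod σ) D ≤ ENNReal.ofReal (δ * ε) := by
      rw [Measure.prod_apply_symm hD]
      calc ∫⁻ s, μ ((fun x => (x, s)) ⁻¹' D) ∂σ ≤ ∫⁻ s, ENNReal.ofReal ε ∂σ := by
            rw [hσ]
            apply lintegral_mono_ae
            filter_upwards [ae_restrict_mem measurableSet_Ioc] with s hs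
            have h1 := h s (by rw [abs_of_pos hs.1]; exact hs.2)
            rw [measureReal_def] at h1
            exact (ENNReal.le_ofReal_iff_toReal_le (measure_ne_top _ _) hε).2 h1
        _ = ENNReal.ofReal (δ * ε) := by
            rw [lintegral_const, hσu, ← ENNReal.ofReal_mul hε, mul_comm]
    rw [e1]
    exact ENNReal.toReal_le_of_le_ofReal (by positivity) e2

/-- ROW E2 (Fubini). -/
theorem rowE2 {N : ℕ} (T : PolygonalTable N) {Θ : ℝ → ℂ × ℂ → ℂ × ℂ} (hΘ : PFlow T.mu Θ)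
    {A : Set (ℂ × ℂ)} (hA : MeasurableSet A) {δ ε : ℝ} (hδ : 0 < δ)
    (h : ∀ s : ℝ, |s| ≤ δ → T.mu.real (symmDiff A (Θ s ⁻¹' A)) ≤ ε) :
    Measurable (err Θ A δ) ∧ (∀ q, 0 ≤ err Θ A δ q ∧ err Θ A δ q ≤ δ) ∧
      ∫ q, err Θ A δ q ∂T.mu ≤ δ * ε :=
  err_gen T.mu hΘ.meas hA hδ h

end Vale.Agent.P099.H366
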