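import Vale.Agent.P099.R2.H366.RowC1
import Vale.Agent.P099.R2.H158.RowE2

/-! # P099, wave fronts (H366): row E3 (free flight, Fubini), by helper158. -/

set_option linter.all false

namespace Vale.Agent.P099.H366

open MeasureTheory Set Filter Topology Vale.Agent.P099 Vale.Agent.P099T

theorem e3_ac {N : ℕ} (T : PolygonalTable N) {δ : ℝ} (hδ : 0 < δ) :
    ((volume : Measure ℂ).restrict (inner T δ)) ≪ ProbabilityTheory.cond volume T.Q := by
  have hQt : (volume : Measure ℂ) T.Q ≠ ⊤ := T.isBounded.measure_lt_top.ne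
  have hsub : inner T δ ⊆ T.Q := by
    intro p hp
    by_contra h
    have h1 : Metric.infDist p T.Qᶜ = 0 := Metric.infDist_zero_of_mem h
    have h2 : δ < Metric.infDist p T.Qᶜ := hp
    linarith
  refine Measure.AbsolutelyContinuous.mk fun s hs h0 => ?_
  rw [ProbabilityTheory.cond_apply T.isOpen.measurableSet] at h0
  rw [mul_eq_zero] at h0
  rcases h0 with h0 | h0
  · exact absurd (ENNReal.inv_eq_zero.1 h0) hQt
  · rw [Measure.restrict_apply hs]
    have h1 : s ∩ inner T δ ⊆ T.Q ∩ s := fun x hx => ⟨hsub hx.2, hx.1⟩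
    exact measure_mono_null h1 h0

theorem e3_isOpen_inner {N : ℕ} (T : PolygonalTable N) (δ : ℝ) : IsOpen (inner T δ) :=
  isOpen_lt continuous_const (Metric.continuous_infDist_pt _)

theorem e3_commute {Z : Type*} [MeasurableSpace Z] {m : Measure Z} [IsProbabilityMeasure m]
    {Θ : ℝ → Z → Z} (hm : Measurable (fun z : ℝ × Z => Θ z.1 z.2)) [MeasurableEq Z]
    (hadd : ∀ s t, ∀ᵐ q ∂m, Θ (s + t) q = Θ s (Θ t q)) (σ : Measure ℝ) [SFinite σ] (t : ℝ) :
    ∀ᵐ q ∂m, ∀ᵐ s ∂σ, Θ t (Θ s q) = Θ s (Θ t q) := by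
  have hmt : Measurable (Θ t) := hm.comp (measurable_const.prodMk measurable_id)
  have h1 : Measurable (fun z : ℝ × Z => Θ t (Θ z.1 z.2)) := hmt.comp hm
  have h2 : Measurable (fun z : ℝ × Z => Θ z.1 (Θ t z.2)) :=
    hm.comp (measurable_fst.prodMk (hmt.comp measurable_snd))
  rw [← Measure.ae_ae_comm (p := fun s q => Θ t (Θ s q) = Θ s (Θ t q)) (measurableSet_eq_fun h1 h2)]
  refine Eventually.of_forall fun s => ?_
  filter_upwards [hadd t s, hadd s t] with q h3 h4
  rw [← h3, ← h4, add_comm]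

/-- ROW E3 (free flight (row C1) and the flow law; for almost every `p ∈ inner T δ`, almost every
`(s, θ)` with `s ∈ (0, δ]` satisfies `Θ t (mv p (s, θ)) = Θ t (Θ s (p, θ)) = Θ s (Θ t (p, θ))`). -/
theorem rowE3 {N : ℕ} (T : PolygonalTable N) {Θ : ℝ → ℂ × ℂ → ℂ × ℂ} (hΘ : PFlow T.mu Θ)
    (hb : T.IsBilliardFlow Θ) {A : Set (ℂ × ℂ)} (hA : MeasurableSet A) {G : Set ℂ}
    (hG : MeasurableSet G) {δ : ℝ} (hδ : 0 < δ) (t : ℝ) :
    ∀ᵐ p ∂((volume : Measure ℂ).restrict (inner T δ)),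
      |δ * nu.real {θ | θ ∈ G ∧ Θ t (p, θ) ∈ A} - (rho δ G).real {z | Θ t (mv p z) ∈ A}| ≤
        ∫ θ in G, err Θ A δ (Θ t (p, θ)) ∂nu := by
  set σ := (volume : Measure ℝ).restrict (Ioc 0 δ) with hσ
  have hfinσ : IsFiniteMeasure σ := by rw [hσ]; infer_instance
  have hσu : σ.real univ = δ := by
    rw [hσ, measureReal_restrict_apply_univ]; simp [hδ.le]
  have hm := hΘ.meas
  have hmt : Measurable (Θ t) := (hΘ.mp t).measurable
  have hnorm : ∀ᵐ u ∂nu, ‖u‖ = 1 := by
    unfold nu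
    rw [ae_map_iff (by fun_prop) (measurableSet_eq_fun (by fun_prop) (by fun_prop))]
    exact Eventually.of_forall fun θ => Complex.norm_exp_ofReal_mul_I θ
  have hcomm := e3_commute (m := T.mu) hm hΘ.add σ t
  have hall : ∀ᵐ p ∂(ProbabilityTheory.cond volume T.Q), ∀ᵐ θ ∂nu,
      (∀ᵐ s ∂σ, Θ t (Θ s (p, θ)) = Θ s (Θ t (p, θ))) ∧
      (Θ 0 (p, θ) = (p, θ) ∧ T.IsTrajectory (fun t => Θ t (p, θ))) := by
    exact Measure.ae_ae_of_ae_prod (hcomm.and hb)
  have hall' := (e3_ac T hδ).ae_le hall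
  filter_upwards [hall', ae_restrict_mem (e3_isOpen_inner T δ).measurableSet] with p hp hpin
  -- almost everywhere identity
  have hid : ∀ᵐ θ ∂nu, ∀ᵐ s ∂σ, Θ t (mv p (s, θ)) = Θ s (Θ t (p, θ)) := by
    filter_upwards [hp, hnorm] with θ hθ hn
    filter_upwards [hθ.1, ae_restrict_mem measurableSet_Ioc] with s hs hs2
    rw [← rowC1 T hpin hn hθ.2.1 hθ.2.2 ⟨hs2.1.le, hs2.2⟩]
    exact hs
  have hmv : Measurable (fun z : ℝ × ℂ => Θ t (mv p z)) := by
    apply hmt.comp
    unfold mv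
    fun_prop
  have hml : Measurable (fun z : ℝ × ℂ => Θ t (p, z.2)) :=
    hmt.comp (measurable_const.prodMk measurable_snd)
  have hmr : Measurable (fun z : ℝ × ℂ => Θ z.1 (Θ t (p, z.2))) :=
    hm.comp (measurable_fst.prodMk hml)
  have hrho : ∀ᵐ z ∂(rho δ G), Θ t (mv p z) = Θ z.1 (Θ t (p, z.2)) := by
    unfold rho
    rw [← hσ, Measure.ae_prod_iff_ae_ae (measurableSet_eq_fun hmv hmr)]
    rw [Measure.ae_ae_comm (p := fun (s : ℝ) (θ : ℂ) => Θ t (mv p (s, θ)) = Θ s (Θ t (p, θ)))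
      (measurableSet_eq_fun hmv hmr)]
    exact ae_restrict_of_ae hid
  have hfr : IsFiniteMeasure (rho δ G) := by unfold rho; infer_instance
  set U : Set (ℝ × ℂ) := {z | Θ t (p, z.2) ∈ A} with hU
  set V' : Set (ℝ × ℂ) := {z | Θ z.1 (Θ t (p, z.2)) ∈ A} with hV'
  have hUm : MeasurableSet U := hml hA
  have hVm : MeasurableSet V' := hmr hA
  have e1 : δ * nu.real {θ | θ ∈ G ∧ Θ t (p, θ) ∈ A} = (rho δ G).real U := by
    have h1 : U = univ ×ˢ {θ | Θ t (p, θ) ∈ A} := by ext z; simp [hU]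
    rw [h1]
    unfold rho
    rw [measureReal_prod_prod, ← hσ, hσu, measureReal_restrict_apply]
    · congr 2
      ext θ; simp [and_comm]
    · exact (hmt.comp (measurable_const.prodMk measurable_id)) hA
  have e2 : (rho δ G).real {z | Θ t (mv p z) ∈ A} = (rho δ G).real V' := by
    apply measureReal_congr
    filter_upwards [hrho] with z hz
    apply propext
    show Θ t (mv p z) ∈ A ↔ Θ z.1 (Θ t (p, z.2)) ∈ A
    rw [hz]
  have e3 : |(rho δ G).real U - (rho δ G).real V'| ≤ (rho δ G).real (symmDiff U V') := by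
    have h1 : (rho δ G).real U ≤ (rho δ G).real V' + (rho δ G).real (symmDiff U V') := by
      refine (measureReal_mono (s₂ := V' ∪ symmDiff U V') ?_).trans (measureReal_union_le _ _)
      intro z hz
      by_cases h : z ∈ V'
      · exact Or.inl h
      · exact Or.inr (Or.inl ⟨hz, h⟩)
    have h2 : (rho δ G).real V' ≤ (rho δ G).real U + (rho δ G).real (symmDiff U V') := by
      refine (measureReal_mono (s₂ := U ∪ symmDiff U V') ?_).trans (measureReal_union_le _ _)
      intro z hz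
      by_cases h : z ∈ U
      · exact Or.inl h
      · exact Or.inr (Or.inr ⟨hz, h⟩)
    rw [abs_le]; constructor <;> linarith
  have e4 : (rho δ G).real (symmDiff U V') = ∫ θ in G, err Θ A δ (Θ t (p, θ)) ∂nu := by
    have hS : MeasurableSet (symmDiff U V') := hUm.symmDiff hVm
    rw [measureReal_def]
    unfold rho
    rw [Measure.prod_apply_symm hS]
    have h1 : ∀ θ : ℂ, (fun s : ℝ => (s, θ)) ⁻¹' (symmDiff U V') =
        {s | Θ t (p, θ) ∈ symmDiff A (Θ s ⁻¹' A)} := by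
      intro θ; ext s
      simp [hU, hV', mem_symmDiff]
    have h2 : Measurable (fun θ : ℂ => σ ((fun s : ℝ => (s, θ)) ⁻¹' (symmDiff U V'))) :=
      measurable_measure_prodMk_right hS
    rw [← hσ]
    rw [← integral_toReal h2.aemeasurable (Eventually.of_forall fun θ => measure_lt_top _ _)]
    apply integral_congr_ae
    refine Eventually.of_forall fun θ => ?_
    show (σ ((fun s : ℝ => (s, θ)) ⁻¹' (symmDiff U V'))).toReal = err Θ A δ (Θ t (p, θ))
    rw [h1]
    rfl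
  rw [e1, e2, ← e4]
  exact e3

end Vale.Agent.P099.H366
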