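import Mathlib

/-! # P099, wave fronts (H366): row E4 (real analysis), by helper158. -/

set_option linter.all false

namespace Vale.Agent.P099.H366

open MeasureTheory Set Filter Topology

/-- ROW E4 (real analysis: `|x| ≤ η + x² / (4 η)`). -/
theorem rowE4 {w W e : ℕ → ℝ} {δ ε c g L : ℝ} (hδ : 0 < δ) (hε : 0 < ε)
    (h1 : ∀ k, |δ * w k - W k| ≤ e k)
    (h2 : Tendsto (fun n : ℕ => (n : ℝ)⁻¹ * ∑ k ∈ Finset.range n, W k) atTop (𝓝 (c * (δ * g))))
    (h3 : Tendsto (fun n : ℕ => (n : ℝ)⁻¹ * ∑ k ∈ Finset.range n, W k ^ 2) atTop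
      (𝓝 ((c * (δ * g)) ^ 2)))
    (h4 : Tendsto (fun n : ℕ => (n : ℝ)⁻¹ * ∑ k ∈ Finset.range n, e k) atTop (𝓝 L))
    (hL : L ≤ δ * ε) :
    ∀ᶠ n : ℕ in atTop, (n : ℝ)⁻¹ * ∑ k ∈ Finset.range n, |w k - c * g| ≤ 3 * ε := by
  set b := c * (δ * g) with hb
  set η := δ * ε with hη
  have hη0 : 0 < η := mul_pos hδ hε
  -- pointwise bound
  have hpt : ∀ k, δ * |w k - c * g| ≤ e k + (η + (4 * η)⁻¹ * (W k ^ 2 + (-(2 * b)) * W k + b ^ 2)) := by
    intro k
    have e1 : δ * |w k - c * g| = |(δ * w k - W k) + (W k - b)| := by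
      rw [← abs_of_pos hδ, ← abs_mul, abs_of_pos hδ]
      congr 1
      rw [hb]; ring
    have e2 : |W k - b| ≤ η + (4 * η)⁻¹ * (W k ^ 2 + (-(2 * b)) * W k + b ^ 2) := by
      have e3 : W k ^ 2 + (-(2 * b)) * W k + b ^ 2 = |W k - b| ^ 2 := by rw [sq_abs]; ring
      rw [e3]
      have e4 : η + (4 * η)⁻¹ * |W k - b| ^ 2 - |W k - b| = (4 * η)⁻¹ * (|W k - b| - 2 * η) ^ 2 := by
        field_simp; ring
      have e5 : 0 ≤ (4 * η)⁻¹ * (|W k - b| - 2 * η) ^ 2 := by positivity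
      linarith
    rw [e1]
    exact (abs_add_le _ _).trans (add_le_add (h1 k) e2)
  -- limit of the averages of the right side
  have hone : Tendsto (fun n : ℕ => (n : ℝ)⁻¹ * (n : ℝ)) atTop (𝓝 1) := by
    apply tendsto_const_nhds.congr'
    filter_upwards [eventually_gt_atTop 0] with n hn
    have : (n : ℝ) ≠ 0 := by positivity
    rw [inv_mul_cancel₀ this]
  have hlim : Tendsto (fun n : ℕ => (n : ℝ)⁻¹ * ∑ k ∈ Finset.range n,
      (e k + (η + (4 * η)⁻¹ * (W k ^ 2 + (-(2 * b)) * W k + b ^ 2)))) atTop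
      (𝓝 (L + (η * 1 + (4 * η)⁻¹ * (b ^ 2 + (-(2 * b)) * b + b ^ 2 * 1)))) := by
    have := h4.add ((hone.const_mul η).add (((h3.add (h2.const_mul (-(2 * b)))).add
      (hone.const_mul (b ^ 2))).const_mul (4 * η)⁻¹))
    apply this.congr
    intro n
    simp only [Finset.sum_add_distrib, ← Finset.mul_sum, Finset.sum_const, Finset.card_range,
      nsmul_eq_mul]
    ring
  have hval : L + (η * 1 + (4 * η)⁻¹ * (b ^ 2 + (-(2 * b)) * b + b ^ 2 * 1)) < 3 * η := by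
    have : b ^ 2 + (-(2 * b)) * b + b ^ 2 * 1 = 0 := by ring
    rw [this]; linarith
  filter_upwards [hlim.eventually (gt_mem_nhds hval)] with n hn
  have h5 : δ * ((n : ℝ)⁻¹ * ∑ k ∈ Finset.range n, |w k - c * g|) ≤
      (n : ℝ)⁻¹ * ∑ k ∈ Finset.range n,
      (e k + (η + (4 * η)⁻¹ * (W k ^ 2 + (-(2 * b)) * W k + b ^ 2))) := by
    rw [← mul_assoc, mul_comm δ, mul_assoc, Finset.mul_sum]
    apply mul_le_mul_of_nonneg_left _ (by positivity)
    exact Finset.sum_le_sum fun k _ => hpt k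
  have h6 : δ * ((n : ℝ)⁻¹ * ∑ k ∈ Finset.range n, |w k - c * g|) ≤ δ * (3 * ε) := by
    have : 3 * η = δ * (3 * ε) := by rw [hη]; ring
    linarith
  exact le_of_mul_le_mul_left h6 hδ

end Vale.Agent.P099.H366
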